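import Vale.Agent.P235.H606.PDefs

/-!
# Packing theorem for all graphs: statements (helper606)
-/

set_option autoImplicit false

namespace Vale.Agent.P235.H606

open SimpleGraph Vale.Agent.P235 Vale.Agent.P235.H134

/-- (MONO) `c₁` of a minor, up to the factor 2 -/
def MonoStmt : Prop :=
  ∀ (V W : Type) [Finite V] [Finite W] (G : SimpleGraph V) (H : SimpleGraph W) (C : ℝ), 1 ≤ C →
    G.Connected → H.Connected → IsMinor H G → DistortionLE G C → DistortionLE H (2 * C)

/-- (BADK) large complete graphs are bad, and so is everything which contains one as a minor -/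
def BadKStmt : Prop :=
  ∀ C : ℝ, ∃ n : ℕ, 1 ≤ n ∧ ∀ (V : Type) [Finite V] (G : SimpleGraph V), G.Connected →
    IsMinor (⊤ : SimpleGraph (Fin n)) G → ¬ DistortionLE G C

/-- (SPLK) a complete minor with `(m + 1) * n` vertices gives `m + 1` disjoint ones with `n` -/
def SplKStmt : Prop :=
  ∀ (V : Type) (G : SimpleGraph V) (m n : ℕ), 1 ≤ n →
    IsMinor (⊤ : SimpleGraph (Fin ((m + 1) * n))) G →
    ∃ A : Fin (m + 1) → Set V, (∀ i, (G.induce (A i)).Connected ∧
      IsMinor (⊤ : SimpleGraph (Fin n)) (G.induce (A i))) ∧ ∀ i j, i ≠ j → Disjoint (A i) (A j)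

/-- (ALL) the packing theorem for all finite connected graphs, no excluded minor -/
def AllStmt : Prop :=
  ∀ C : ℝ, 1 ≤ C → ∃ K : ℝ, ∀ (m : ℕ) (V : Type) [Finite V] (G : SimpleGraph V), G.Connected →
    ¬ Packing G C m → DistortionLE G (K * ((m : ℝ) + 1) ^ 3 * Real.log ((m : ℝ) + 2)) ∧
    DistortionLE G (K * ((m : ℝ) + 1) ^ 6 * √(Real.log ((m : ℝ) + 2)))

end Vale.Agent.P235.H606
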