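import Vale.Agent.P235.R2.H341.KrSpec
import Vale.Agent.P235.H134.Grid.Defs
import Vale.Agent.P235.Comp.Defs

/-!
# Disjoint unions of excluded minors: statements (helper606)

If `c₁` is bounded on the connected graphs without a minor `H₁` and on the connected graphs without
a minor `H₂`, then also on the connected graphs without a minor `H₁ ⊕g H₂`.  Statements only: each
block proves `theorem … : XStmt`.
-/

set_option autoImplicit false

namespace Vale.Agent.P235.H606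

open SimpleGraph Vale.Agent.P235 Vale.Agent.P235.H134

/-- closed ball of the path metric -/
def ball {V : Type} (G : SimpleGraph V) (ℓ : Sym2 V → ℝ) (o : V) (R : ℝ) : Set V :=
  {u | pathDist G ℓ o u ≤ R}

/-- `c₁ ≤ C` for the finite connected graphs without a minor `H` -/
def Free {W : Type} (H : SimpleGraph W) (C : ℝ) : Prop :=
  ∀ (V : Type) [Finite V] (G : SimpleGraph V), G.Connected → ¬ IsMinor H G → DistortionLE G C

/-- (IND) balls are connected and isometric near the centre -/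
def IndStmt : Prop :=
  ∀ (V : Type) [Finite V] (G : SimpleGraph V) (ℓ : Sym2 V → ℝ) (v : V) (ρ : ℝ), G.Connected →
    (∀ e ∈ G.edgeSet, 0 < ℓ e) → 0 ≤ ρ →
    (G.induce (ball G ℓ v ρ)).Connected ∧
    ∀ x y : ball G ℓ v ρ, pathDist G ℓ v x + pathDist G ℓ x y ≤ ρ →
      pathDist (G.induce (ball G ℓ v ρ)) (fun e => ℓ (e.map Subtype.val)) x y = pathDist G ℓ x y

/-- (BALL) a smallest ball with a minor `H`, over all centres -/
def BallStmt : Prop :=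
  ∀ (V : Type) [Finite V] (G : SimpleGraph V) (ℓ : Sym2 V → ℝ) (W : Type) [Nonempty W]
    (H : SimpleGraph W), G.Connected → (∀ e ∈ G.edgeSet, 0 < ℓ e) → IsMinor H G →
    ∃ (o : V) (R : ℝ), 0 ≤ R ∧ IsMinor H (G.induce (ball G ℓ o R)) ∧
      ∀ (v : V) (ρ : ℝ), ρ < R → ¬ IsMinor H (G.induce (ball G ℓ v ρ))

/-- (SPL) a component off `A` is disjoint from `A` -/
def SplStmt : Prop :=
  ∀ (V W₁ W₂ : Type) (G : SimpleGraph V) (H₁ : SimpleGraph W₁) (H₂ : SimpleGraph W₂) (A : Set V)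
    (u : V), IsMinor H₁ (G.induce A) → IsMinor H₂ (G.induce (compSet G A u)) →
    IsMinor (H₁ ⊕g H₂) G

/-- (NOK) graphs without a minor `H` have no complete minor of that size -/
def NoKStmt : Prop :=
  ∀ (V W : Type) [Finite W] (G : SimpleGraph V) (H : SimpleGraph W), ¬ IsMinor H G →
    Kr.NoK (Nat.card W) G

/-- (LOC) the local maps, from `IndStmt` -/
def LocStmt : Prop :=
  ∀ (V : Type) [Finite V] (G : SimpleGraph V) (ℓ : Sym2 V → ℝ) (v : V) (R C : ℝ), G.Connected →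
    (∀ e ∈ G.edgeSet, 0 < ℓ e) → 0 < R → 1 ≤ C →
    DistortionLE (G.induce (ball G ℓ v (R / 2))) C →
    ∃ ρ : V → V → ℝ, IsL1 ρ ∧ ∀ x y, pathDist G ℓ v x ≤ R / 8 → pathDist G ℓ v y ≤ R / 8 →
      pathDist G ℓ x y ≤ ρ x y ∧ ρ x y ≤ C * pathDist G ℓ x y

/-- (GLUE) local maps glue: one map with slope at least one up to distance `R` -/
def GlueStmt : Prop :=
  ∀ (V : Type) [Finite V] (G : SimpleGraph V) (ℓ : Sym2 V → ℝ) (r : ℕ) (R C : ℝ),
    G.Connected → Kr.NoK r G → (∀ e ∈ G.edgeSet, 0 < ℓ e) → 0 < R → 1 ≤ C →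
    (∀ v, ∃ ρ : V → V → ℝ, IsL1 ρ ∧ ∀ x y, pathDist G ℓ v x ≤ R / 8 → pathDist G ℓ v y ≤ R / 8 →
      pathDist G ℓ x y ≤ ρ x y ∧ ρ x y ≤ C * pathDist G ℓ x y) →
    ∃ F : V → V → ℝ, IsL1 F ∧
      (∀ x y, F x y ≤ 10000 * ((r : ℝ) + 2) ^ 3 * C * pathDist G ℓ x y) ∧
      ∀ x y, min (pathDist G ℓ x y) R ≤ F x y

/-- (BIN) hence the metric of a ball of radius `R` embeds -/
def BinStmt : Prop :=
  ∀ (V : Type) [Finite V] (G : SimpleGraph V) (ℓ : Sym2 V → ℝ) (o : V) (R K : ℝ),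
    G.Connected → (∀ e ∈ G.edgeSet, 0 < ℓ e) →
    (∃ F : V → V → ℝ, IsL1 F ∧ (∀ x y, F x y ≤ K * pathDist G ℓ x y) ∧
      ∀ x y, min (pathDist G ℓ x y) R ≤ F x y) →
    EmbedsL1 (fun x y : ball G ℓ o R => pathDist G ℓ x y) (2 * K)

/-- (DELA) delete any set, in a graph without a `K_r` minor -/
def DelAStmt : Prop :=
  ∀ (V : Type) [Finite V] (G : SimpleGraph V) (ℓ : Sym2 V → ℝ) (r : ℕ) (A : Set V) (B Q : ℝ),
    G.Connected → Kr.NoK r G → (∀ e ∈ G.edgeSet, 0 < ℓ e) → A.Nonempty → 1 ≤ B → 1 ≤ Q →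
    EmbedsL1 (fun x y : A => pathDist G ℓ x y) B →
    (∀ u, u ∉ A → DistortionLE (G.induce (compSet G A u)) Q) →
    EmbedsL1 (pathDist G ℓ) (1600000000 * (Q + ((r : ℝ) + 2) ^ 3 * B))

/-- (U) disjoint unions of excluded minors -/
def UnionStmt : Prop :=
  ∀ (W₁ W₂ : Type) [Finite W₁] [Finite W₂] [Nonempty W₁] (H₁ : SimpleGraph W₁)
    (H₂ : SimpleGraph W₂) (C₁ C₂ : ℝ), 1 ≤ C₁ → 1 ≤ C₂ → Free H₁ C₁ → Free H₂ C₂ →
    Free (H₁ ⊕g H₂) (10 ^ 14 * ((Nat.card W₁ + Nat.card W₂ : ℕ) + 2 : ℝ) ^ 6 * (C₁ + C₂))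

end Vale.Agent.P235.H606
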