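import Vale.Agent.P235.H606.UDefs
import Vale.Agent.P235.Comp.PathSum

/-!
Balls: connected, isometric near the centre, local maps (helper606).
-/

set_option autoImplicit false

namespace Vale.Agent.P235.H606

open SimpleGraph Vale.Agent.P235 Vale.Agent.P235.H134

theorem ind_sum {V : Type} {G : SimpleGraph V} {ℓ : Sym2 V → ℝ} {S : Set V} {x y : V}
    (w : G.Walk x y) (hw : ∀ z ∈ w.support, z ∈ S) :
    ((w.induce S hw).edges.map (fun e : Sym2 S => ℓ (e.map Subtype.val))).sum =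
      (w.edges.map ℓ).sum := by
  induction w with
  | nil => simp
  | @cons x z y h p ih =>
    have h1 := ih fun u hu => hw u (by
      rw [Walk.support_cons]
      exact List.mem_cons_of_mem _ hu)
    rw [Walk.edges_cons, List.map_cons, List.sum_cons, ← h1]
    rfl

/-- a point on a shortest walk from `x` to `y` is at distance at most `d x y` from `x` -/
theorem geo_le {V : Type} [Finite V] {G : SimpleGraph V} {ℓ : Sym2 V → ℝ} (hc : G.Connected)
    (hℓ : ∀ e ∈ G.edgeSet, 0 < ℓ e) {x y : V} (p : G.Walk x y)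
    (hp : (p.edges.map ℓ).sum = pathDist G ℓ x y) {z : V} (hz : z ∈ p.support) :
    pathDist G ℓ x z ≤ pathDist G ℓ x y := by
  classical
  have e1 : (p.edges.map ℓ).sum = ((p.takeUntil z hz).edges.map ℓ).sum +
      ((p.dropUntil z hz).edges.map ℓ).sum := by
    rw [← sum_edges_append, Walk.take_spec]
  have h1 := pathDist_le hℓ (p.takeUntil z hz)
  have h2 := pathDist_le hℓ (p.dropUntil z hz)
  have h3 := pathDist_nonneg hℓ z y
  linarith

theorem li_pos' {V : Type} {G : SimpleGraph V} {ℓ : Sym2 V → ℝ} (hℓ : ∀ e ∈ G.edgeSet, 0 < ℓ e)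
    (S : Set V) : ∀ e ∈ (G.induce S).edgeSet, 0 < (fun e : Sym2 S => ℓ (e.map Subtype.val)) e := by
  intro e he
  induction e with
  | _ a b => exact hℓ s(a.1, b.1) he

theorem indStmt : IndStmt := by
  intro V _ G ℓ v ρ hc hℓ hρ
  have hd := pathDist_isMet hc hℓ
  have hv : v ∈ ball G ℓ v ρ := by
    show pathDist G ℓ v v ≤ ρ
    rw [hd.self]
    exact hρ
  have hconn : (G.induce (ball G ℓ v ρ)).Connected := by
    haveI : Nonempty (ball G ℓ v ρ) := ⟨⟨v, hv⟩⟩
    refine ⟨?_⟩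
    have key : ∀ x : ball G ℓ v ρ, (G.induce (ball G ℓ v ρ)).Reachable ⟨v, hv⟩ x := by
      intro x
      obtain ⟨p, hp⟩ := exists_geodesic hc hℓ v x.1
      have hs : ∀ z ∈ p.support, z ∈ ball G ℓ v ρ := fun z hz =>
        (geo_le hc hℓ p hp hz).trans x.2
      exact ⟨p.induce _ hs⟩
    intro x y
    exact (key x).symm.trans (key y)
  refine ⟨hconn, fun x y hxy => le_antisymm ?_ ?_⟩
  · obtain ⟨p, hp⟩ := exists_geodesic hc hℓ x.1 y.1
    have hs : ∀ z ∈ p.support, z ∈ ball G ℓ v ρ := fun z hz => by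
      have h1 := geo_le hc hℓ p hp hz
      have h2 := hd.tri v x.1 z
      show pathDist G ℓ v z ≤ ρ
      linarith
    have h3 := pathDist_le (G := G.induce (ball G ℓ v ρ)) (li_pos' hℓ (ball G ℓ v ρ))
      (p.induce _ hs)
    rw [ind_sum, hp] at h3
    exact h3
  · have : Nonempty ((G.induce (ball G ℓ v ρ)).Walk x y) := hconn x y
    refine le_ciInf fun w => ?_
    have h4 := pathDist_le hℓ (w.map (Embedding.induce (ball G ℓ v ρ)).toHom)
    rw [Walk.edges_map, List.map_map] at h4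
    exact h4

theorem locStmt : LocStmt := by
  classical
  intro V _ G ℓ v R C hc hℓ hR hC h
  have hd := pathDist_isMet hc hℓ
  obtain ⟨-, hiso⟩ := indStmt V G ℓ v (R / 2) hc hℓ (by positivity)
  obtain ⟨ρ₀, hL, hle, hup, -⟩ := (h _ (li_pos' hℓ _)).toL1S
  have := Fintype.ofFinite (ball G ℓ v (R / 2))
  have hL1 : IsL1 ρ₀ := hL.isL1
  have hv : v ∈ ball G ℓ v (R / 2) := by
    show pathDist G ℓ v v ≤ R / 2
    rw [hd.self]
    positivity
  let φ : V → ball G ℓ v (R / 2) := fun x =>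
    if hx : x ∈ ball G ℓ v (R / 2) then ⟨x, hx⟩ else ⟨v, hv⟩
  have hφ : ∀ x, pathDist G ℓ v x ≤ R / 8 → (φ x).1 = x := by
    intro x hx
    have hx' : x ∈ ball G ℓ v (R / 2) := hx.trans (by linarith)
    show (if hx : x ∈ ball G ℓ v (R / 2) then (⟨x, hx⟩ : ball G ℓ v (R / 2)) else ⟨v, hv⟩).1 = x
    rw [dif_pos hx']
  refine ⟨fun x y => ρ₀ (φ x) (φ y), hL1.comap φ, fun x y hx hy => ?_⟩
  have ex := hφ x hx
  have ey := hφ y hy
  have h1 := hiso (φ x) (φ y) (by
    rw [ex, ey]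
    have h2 := hd.tri x v y
    rw [hd.symm x v] at h2
    linarith)
  rw [ex, ey] at h1
  have h3 := hle (φ x) (φ y)
  have h4 := hup (φ x) (φ y)
  rw [h1] at h3 h4
  exact ⟨h3, h4⟩

end Vale.Agent.P235.H606
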