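import Vale.Agent.P235.H606.UDefs
import Vale.Agent.P235.Comp.Core

/-!
# Packing theorem: statements (helper606)

A graph without a `K_r` minor and with large `c₁` contains many disjoint connected subgraphs with
large `c₁`.  Statements only: each block proves `theorem … : XStmt`.
-/

set_option autoImplicit false

namespace Vale.Agent.P235.H606

open SimpleGraph Vale.Agent.P235 Vale.Agent.P235.H134

/-- (GLUES) local maps at the vertices of `S` glue to one map which serves the vertices of `S` -/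
def GlueSStmt : Prop :=
  ∀ (V : Type) [Finite V] (G : SimpleGraph V) (ℓ : Sym2 V → ℝ) (r : ℕ) (R C : ℝ) (S : Set V),
    G.Connected → Kr.NoK r G → (∀ e ∈ G.edgeSet, 0 < ℓ e) → 0 < R → 1 ≤ C →
    (∀ v ∈ S, ∃ ρ : V → V → ℝ, IsL1 ρ ∧ ∀ x y, pathDist G ℓ v x ≤ R / 8 →
      pathDist G ℓ v y ≤ R / 8 → pathDist G ℓ x y ≤ ρ x y ∧ ρ x y ≤ C * pathDist G ℓ x y) →
    ∃ F : V → V → ℝ, IsL1 F ∧
      (∀ x y, F x y ≤ 10000 * ((r : ℝ) + 2) ^ 3 * C * pathDist G ℓ x y) ∧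
      ∀ x ∈ S, ∀ y, min (pathDist G ℓ x y) R ≤ F x y

/-- (SCL) one map for every dyadic scale, localised and added -/
def SclStmt : Prop :=
  ∀ (V : Type) [Finite V] (d : V → V → ℝ) (s : V → ℝ) (K δ : ℝ), IsMet d → (∀ x, 0 ≤ s x) →
    (∀ x y, |s x - s y| ≤ d x y) → 1 ≤ K → 0 < δ → δ ≤ 1 →
    (∀ k : ℤ, ∃ F : V → V → ℝ, IsL1 F ∧ (∀ x y, F x y ≤ K * d x y) ∧
      ∀ x y, (2 : ℝ) ^ k ≤ 2 * s x → min (d x y) (δ * 2 ^ k) ≤ F x y) →
    ∃ Q : V → V → ℝ, IsL1 Q ∧ (∀ x y, Q x y ≤ 20 * K * d x y) ∧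
      ∀ x y, δ / 100 * min (d x y) (s x) ≤ Q x y

/-- (VAR) a set `X` whose metric embeds, and good balls of radius up to `δ d(v, X)` -/
def VarStmt : Prop :=
  ∀ (V : Type) [Finite V] (G : SimpleGraph V) (ℓ : Sym2 V → ℝ) (r : ℕ) (X : Set V) (B C δ : ℝ),
    G.Connected → Kr.NoK r G → (∀ e ∈ G.edgeSet, 0 < ℓ e) → X.Nonempty → 1 ≤ B → 1 ≤ C →
    0 < δ → δ ≤ 1 → EmbedsL1 (fun x y : X => pathDist G ℓ x y) B →
    (∀ (v : V) (ρ : ℝ), 0 ≤ ρ → (∀ x ∈ X, ρ < δ * pathDist G ℓ v x) →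
      DistortionLE (G.induce (ball G ℓ v ρ)) C) →
    EmbedsL1 (pathDist G ℓ) (10 ^ 9 * ((r : ℝ) + 2) ^ 3 * (C / δ + B))

/-- (VIT) a maximal family of disjoint bad balls, small ones first; `P`: bad sets -/
def VitStmt : Prop :=
  ∀ (V : Type) [Finite V] (G : SimpleGraph V) (ℓ : Sym2 V → ℝ) (P : Set V → Prop), G.Connected →
    (∀ e ∈ G.edgeSet, 0 < ℓ e) → (∀ v, ¬ P {v}) →
    ∃ (O : Set V) (R : V → ℝ), (∀ o ∈ O, 0 ≤ R o ∧ P (ball G ℓ o (R o))) ∧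
      (O.PairwiseDisjoint fun o => ball G ℓ o (R o)) ∧
      ∀ (v : V) (ρ : ℝ), 0 ≤ ρ → (∀ o ∈ O, 3 * ρ < pathDist G ℓ v o) → ¬ P (ball G ℓ v ρ)

/-- (PTS) few points -/
def PtsStmt : Prop :=
  ∃ K : ℝ, 1 ≤ K ∧ ∀ (V : Type) [Finite V] (G : SimpleGraph V) (ℓ : Sym2 V → ℝ) (r : ℕ),
    G.Connected → Kr.NoK r G → (∀ e ∈ G.edgeSet, 0 < ℓ e) → ∀ (O : Set V) (m : ℕ), O.ncard ≤ m →
    EmbedsL1 (fun x y : O => pathDist G ℓ x y) (K * Real.log ((m : ℝ) + 2)) ∧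
    EmbedsL1 (fun x y : O => pathDist G ℓ x y)
      (K * ((r : ℝ) + 2) ^ 3 * √(Real.log ((m : ℝ) + 2)))

/-- there are `m + 1` disjoint connected sets `A i` with `c₁(G[A i]) > C` -/
def Packing {V : Type} (G : SimpleGraph V) (C : ℝ) (m : ℕ) : Prop :=
  ∃ A : Fin (m + 1) → Set V,
    (∀ i, (G.induce (A i)).Connected ∧ ¬ DistortionLE (G.induce (A i)) C) ∧
    ∀ i j, i ≠ j → Disjoint (A i) (A j)

/-- (PACK) the packing theorem -/
def PackStmt : Prop :=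
  ∃ K : ℝ, 1 ≤ K ∧ ∀ (r m : ℕ) (C : ℝ) (V : Type) [Finite V] (G : SimpleGraph V), 1 ≤ C →
    G.Connected → Kr.NoK r G → ¬ Packing G C m →
    DistortionLE G (K * ((r : ℝ) + 2) ^ 3 * (C + Real.log ((m : ℝ) + 2))) ∧
    DistortionLE G (K * ((r : ℝ) + 2) ^ 6 * (C + √(Real.log ((m : ℝ) + 2))))

/-- (COMP) excluded minors: it is enough to treat the components -/
def CompStmt : Prop :=
  ∃ K : ℝ, 1 ≤ K ∧ ∀ (W : Type) [Finite W] (H : SimpleGraph W) (C : ℝ), 1 ≤ C →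
    (∀ c : H.ConnectedComponent, Free (H.induce c.supp) C) →
    Free H (K * ((Nat.card W : ℝ) + 2) ^ 3 * (C + Real.log ((Nat.card W : ℝ) + 2)))

end Vale.Agent.P235.H606
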