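import Vale.Agent.P235.H606.ADefs
import Vale.Agent.P235.H786.Ball

/-!
# The packing theorem: assembly (helper606)
-/

set_option autoImplicit false

namespace Vale.Agent.P235.H606

open SimpleGraph Vale.Agent.P235 Vale.Agent.P235.H134

theorem minor_induce {V : Type} (G : SimpleGraph V) (A : Set V) : IsMinor (G.induce A) G :=
  H786.minor_ind (S := A) ⟨fun v => {v}, fun v => by
    haveI : Nonempty ({v} : Set A) := ⟨⟨v, rfl⟩⟩
    refine ⟨fun x y => ?_⟩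
    have h : x = y := Subtype.ext (x.2.trans y.2.symm)
    rw [h], fun _ _ h => Set.disjoint_singleton.2 h, fun a b h => ⟨a, rfl, b, rfl, h⟩⟩

theorem main (hMono : MonoStmt) (hAll : AllStmt) (hPack : PackStmt) (hComp : CompStmt)
    (hVar : VarStmt) :
    (∀ C : ℝ, 1 ≤ C → ∃ K : ℝ, ∀ (m : ℕ) (V : Type) [Finite V] (G : SimpleGraph V), G.Connected →
      ¬ Packing G C m →
        DistortionLE G (K * ((m : ℝ) + 1) ^ 3 * Real.log ((m : ℝ) + 2)) ∧
        DistortionLE G (K * ((m : ℝ) + 1) ^ 6 * √(Real.log ((m : ℝ) + 2)))) ∧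
    (∀ F : (V : Type) → SimpleGraph V → Prop,
      (∃ C : ℝ, ∀ (V : Type) [Finite V] (G : SimpleGraph V), G.Connected → F V G →
        DistortionLE G C) ↔
      ∃ (C : ℝ) (m : ℕ), 1 ≤ C ∧ ∀ (V : Type) [Finite V] (G : SimpleGraph V), G.Connected →
        F V G → ¬ Packing G C m) ∧
    ∃ K : ℝ, 1 ≤ K ∧
      (∀ (r m : ℕ) (C : ℝ) (V : Type) [Finite V] (G : SimpleGraph V), 1 ≤ C → G.Connected →
        ¬ IsMinor (⊤ : SimpleGraph (Fin r)) G → ¬ Packing G C m →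
          DistortionLE G (K * ((r : ℝ) + 2) ^ 3 * (C + Real.log ((m : ℝ) + 2))) ∧
          DistortionLE G (K * ((r : ℝ) + 2) ^ 6 * (C + √(Real.log ((m : ℝ) + 2))))) ∧
      (∀ (W : Type) [Finite W] (H : SimpleGraph W) (C : ℝ), 1 ≤ C →
        (∀ c : H.ConnectedComponent, ∀ (V : Type) [Finite V] (G : SimpleGraph V), G.Connected →
          ¬ IsMinor (H.induce c.supp) G → DistortionLE G C) →
        ∀ (V : Type) [Finite V] (G : SimpleGraph V), G.Connected → ¬ IsMinor H G →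
          DistortionLE G
            (K * ((Nat.card W : ℝ) + 2) ^ 3 * (C + Real.log ((Nat.card W : ℝ) + 2)))) ∧
      ∀ (V : Type) [Finite V] (G : SimpleGraph V) (ℓ : Sym2 V → ℝ) (r : ℕ) (X : Set V)
        (B C δ : ℝ), G.Connected → ¬ IsMinor (⊤ : SimpleGraph (Fin r)) G →
        (∀ e ∈ G.edgeSet, 0 < ℓ e) → X.Nonempty → 1 ≤ B → 1 ≤ C → 0 < δ → δ ≤ 1 →
        EmbedsL1 (fun x y : X => pathDist G ℓ x y) B →
        (∀ (v : V) (ρ : ℝ), 0 ≤ ρ → (∀ x ∈ X, ρ < δ * pathDist G ℓ v x) →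
          DistortionLE (G.induce {u | pathDist G ℓ v u ≤ ρ}) C) →
        EmbedsL1 (pathDist G ℓ) (K * ((r : ℝ) + 2) ^ 3 * (C / δ + B)) := by
  obtain ⟨K₁, hK₁, hP⟩ := hPack
  obtain ⟨K₂, hK₂, hC⟩ := hComp
  refine ⟨hAll, fun F => ⟨?_, ?_⟩, max (10 ^ 9) (max K₁ K₂), ?_, ?_, ?_, ?_⟩
  · rintro ⟨C, hC⟩
    refine ⟨2 * max C 1, 0, by linarith [le_max_right C 1], fun V _ G hG hF => ?_⟩
    rintro ⟨A, hA, -⟩
    have h1 : DistortionLE G (max C 1) := (hC V G hG hF).mono (le_max_left _ _)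
    exact (hA 0).2 (hMono V (A 0) G (G.induce (A 0)) (max C 1) (le_max_right _ _) hG (hA 0).1
      (minor_induce G (A 0)) h1)
  · rintro ⟨C, m, hC1, h⟩
    obtain ⟨K, hK⟩ := hAll C hC1
    exact ⟨_, fun V _ G hG hF => (hK m V G hG (h V G hG hF)).1⟩
  · exact le_max_of_le_left (by norm_num)
  · intro r m C V _ G hC1 hG hM hPk
    have hr : (0 : ℝ) ≤ (r : ℝ) + 2 := by positivity
    have hl : 0 ≤ Real.log ((m : ℝ) + 2) := Real.log_nonneg (by
      have : (0 : ℝ) ≤ m := by positivity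
      linarith)
    have hs : 0 ≤ √(Real.log ((m : ℝ) + 2)) := Real.sqrt_nonneg _
    have hKm : K₁ ≤ max (10 ^ 9) (max K₁ K₂) := le_max_of_le_right (le_max_left _ _)
    obtain ⟨h1, h2⟩ := hP r m C V G hC1 hG hM hPk
    refine ⟨h1.mono ?_, h2.mono ?_⟩ <;> gcongr
  · intro W _ H C hC1 hc V _ G hG hM
    have hKm : K₂ ≤ max (10 ^ 9) (max K₁ K₂) := le_max_of_le_right (le_max_right _ _)
    have hl : 0 ≤ Real.log ((Nat.card W : ℝ) + 2) := Real.log_nonneg (by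
      have : (0 : ℝ) ≤ Nat.card W := by positivity
      linarith)
    refine (hC W H C hC1 hc V G hG hM).mono ?_
    gcongr
  · intro V _ G ℓ r X B C δ hG hM hℓ hX hB hC1 hδ hδ1 hE hb
    obtain ⟨Ω, mΩ, μ, f, hf⟩ := hVar V G ℓ r X B C δ hG hM hℓ hX hB hC1 hδ hδ1 hE hb
    refine ⟨Ω, mΩ, μ, f, fun x y => ⟨(hf x y).1, (hf x y).2.trans ?_⟩⟩
    have h0 := pathDist_nonneg hℓ x y
    have h2 : (0 : ℝ) ≤ C / δ + B := by positivity
    have hKm : (10 ^ 9 : ℝ) ≤ max (10 ^ 9) (max K₁ K₂) := le_max_left _ _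
    gcongr

end Vale.Agent.P235.H606
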