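import Vale.Agent.P235.H606.Main
import Vale.Agent.P235.H750.VDefs
import Vale.Agent.P235.H12.BDefs

/-!
# Nested bad graphs: assembly (helper606)
-/

set_option autoImplicit false

namespace Vale.Agent.P235.H606

open SimpleGraph hiding Free
open Vale.Agent.P235 Vale.Agent.P235.H134
open Vale.Agent.P235.H12 (Star)
open Vale.Agent.P235.H750 (BadMinor SelfStmt NestStmt)

/-- the star theorem with constants (helper502) -/
def StarSStmt : Prop :=
  ∃ K : ℝ, 1 ≤ K ∧ ∀ (r k : ℕ) (C : ℝ) (V : Type) [Finite V] (G : SimpleGraph V), 1 ≤ C →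
    G.Connected → Kr.NoK r G → (¬ ∃ (Z : Set V) (D : Fin k → Set V), Star G C k Z D) →
    DistortionLE G (K * ((r : ℝ) + 2) ^ 3 * (C + ((k : ℝ) + 1) * Real.log ((k : ℝ) + 2))) ∧
    DistortionLE G
      (K * ((r : ℝ) + 2) ^ 6 * (C + √(((k : ℝ) + 1) * Real.log ((k : ℝ) + 2))))

theorem nested (hSelf : SelfStmt) (hMono : MonoStmt) (hAll : AllStmt) (hNest : NestStmt)
    (hPack : PackStmt) (hStar : StarSStmt) (hComp : CompStmt) (hVar : VarStmt) :
    (∀ C : ℝ, ∃ K : ℝ, ∀ (V : Type) [Finite V] (G : SimpleGraph V), G.Connected →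
      ¬ DistortionLE G K → BadMinor G C C) ∧
    (∀ F : (V : Type) → SimpleGraph V → Prop,
      (∃ C : ℝ, ∀ (V : Type) [Finite V] (G : SimpleGraph V), G.Connected → F V G →
        DistortionLE G C) ↔
      ∃ C : ℝ, ∀ (V : Type) [Finite V] (G : SimpleGraph V), G.Connected → F V G →
        ¬ BadMinor G C C) ∧
    (∀ C : ℝ, 1 ≤ C → ∃ K : ℝ, ∀ (m : ℕ) (V : Type) [Finite V] (G : SimpleGraph V), G.Connected →
      ¬ Packing G C m →
        DistortionLE G (K * ((m : ℝ) + 1) ^ 3 * Real.log ((m : ℝ) + 2)) ∧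
        DistortionLE G (K * ((m : ℝ) + 1) ^ 6 * √(Real.log ((m : ℝ) + 2)))) ∧
    ∃ K : ℝ, 1 ≤ K ∧
      (∀ (r : ℕ) (C C' : ℝ) (V : Type) [Finite V] (G : SimpleGraph V) (P : Set V → Prop),
        1 ≤ C → 1 ≤ C' → G.Connected → ¬ IsMinor (⊤ : SimpleGraph (Fin r)) G →
        (∀ A B : Set V, A ⊆ B → P A → P B) →
        (∀ A : Set V, (G.induce A).Connected → ¬ P A → DistortionLE (G.induce A) C) →
        (∀ (W : Type) [Finite W] (Q : SimpleGraph W) (p : V → W), Q.Connected →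
          (∀ a, (G.induce {v | p v = a}).Connected ∧ P {v | p v = a}) →
          (∀ a b, Q.Adj a b → ∃ u v, G.Adj u v ∧ p u = a ∧ p v = b) →
          (∀ u v, G.Adj u v → p u ≠ p v → Q.Adj (p u) (p v)) → DistortionLE Q C') →
        DistortionLE G (K * ((r : ℝ) + 2) ^ 9 * (C + C'))) ∧
      (∀ (r m : ℕ) (C : ℝ) (V : Type) [Finite V] (G : SimpleGraph V), 1 ≤ C → G.Connected →
        ¬ IsMinor (⊤ : SimpleGraph (Fin r)) G → ¬ Packing G C m →
          DistortionLE G (K * ((r : ℝ) + 2) ^ 3 * (C + Real.log ((m : ℝ) + 2))) ∧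
          DistortionLE G (K * ((r : ℝ) + 2) ^ 6 * (C + √(Real.log ((m : ℝ) + 2))))) ∧
      (∀ (r k : ℕ) (C : ℝ) (V : Type) [Finite V] (G : SimpleGraph V), 1 ≤ C → G.Connected →
        ¬ IsMinor (⊤ : SimpleGraph (Fin r)) G →
        (¬ ∃ (Z : Set V) (D : Fin k → Set V), Star G C k Z D) →
          DistortionLE G
            (K * ((r : ℝ) + 2) ^ 3 * (C + ((k : ℝ) + 1) * Real.log ((k : ℝ) + 2))) ∧
          DistortionLE G
            (K * ((r : ℝ) + 2) ^ 6 * (C + √(((k : ℝ) + 1) * Real.log ((k : ℝ) + 2))))) ∧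
      (∀ (W : Type) [Finite W] (H : SimpleGraph W) (C : ℝ), 1 ≤ C →
        (∀ c : H.ConnectedComponent, ∀ (V : Type) [Finite V] (G : SimpleGraph V), G.Connected →
          ¬ IsMinor (H.induce c.supp) G → DistortionLE G C) →
        ∀ (V : Type) [Finite V] (G : SimpleGraph V), G.Connected → ¬ IsMinor H G →
          DistortionLE G
            (K * ((Nat.card W : ℝ) + 2) ^ 3 * (C + Real.log ((Nat.card W : ℝ) + 2)))) ∧
      ∀ (V : Type) [Finite V] (G : SimpleGraph V) (ℓ : Sym2 V → ℝ) (r : ℕ) (X : Set V)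
        (B C δ : ℝ), G.Connected → ¬ IsMinor (⊤ : SimpleGraph (Fin r)) G →
        (∀ e ∈ G.edgeSet, 0 < ℓ e) → X.Nonempty → 1 ≤ B → 1 ≤ C → 0 < δ → δ ≤ 1 →
        EmbedsL1 (fun x y : X => pathDist G ℓ x y) B →
        (∀ (v : V) (ρ : ℝ), 0 ≤ ρ → (∀ x ∈ X, ρ < δ * pathDist G ℓ v x) →
          DistortionLE (G.induce {u | pathDist G ℓ v u ≤ ρ}) C) →
        EmbedsL1 (pathDist G ℓ) (K * ((r : ℝ) + 2) ^ 3 * (C / δ + B)) := by
  obtain ⟨h1, -, K₁, hK₁, h3, h4, h5⟩ := main hMono hAll hPack hComp hVar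
  obtain ⟨K₂, hK₂, hN⟩ := hNest
  obtain ⟨K₃, hK₃, hS⟩ := hStar
  have e1 : K₁ ≤ max K₁ (max K₂ K₃) := le_max_left _ _
  have e2 : K₂ ≤ max K₁ (max K₂ K₃) := le_max_of_le_right (le_max_left _ _)
  have e3 : K₃ ≤ max K₁ (max K₂ K₃) := le_max_of_le_right (le_max_right _ _)
  have hlog : ∀ n : ℕ, 0 ≤ Real.log ((n : ℝ) + 2) := fun n => Real.log_nonneg (by
    have : (0 : ℝ) ≤ n := by positivity
    linarith)
  refine ⟨hSelf, fun F => ⟨?_, ?_⟩, h1, max K₁ (max K₂ K₃), ?_, ?_, ?_, ?_, ?_, ?_⟩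
  · rintro ⟨C, hC⟩
    refine ⟨2 * max C 1, fun V _ G hG hF => ?_⟩
    rintro ⟨W, _, Q, μ, hQ, hQb, hμ, hd, he⟩
    have hD : DistortionLE G (max C 1) := (hC V G hG hF).mono (le_max_left _ _)
    exact hQb (hMono V W G Q (max C 1) (le_max_right _ _) hG hQ ⟨μ, fun a => (hμ a).1, hd, he⟩ hD)
  · rintro ⟨C, h⟩
    obtain ⟨K, hK⟩ := hSelf C
    refine ⟨K, fun V _ G hG hF => ?_⟩
    by_contra hn
    exact h V G hG hF (hK V G hG hn)
  · exact le_max_of_le_left hK₁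
  · intro r C C' V _ G P hC hC' hG hM hP hA hQ
    refine (hN r C C' V G P hC hC' hG hM hP hA hQ).mono ?_
    gcongr
  · intro r m C V _ G hC1 hG hM hPk
    obtain ⟨a1, a2⟩ := h3 r m C V G hC1 hG hM hPk
    have hl := hlog m
    have hs : 0 ≤ √(Real.log ((m : ℝ) + 2)) := Real.sqrt_nonneg _
    refine ⟨a1.mono ?_, a2.mono ?_⟩ <;> gcongr
  · intro r k C V _ G hC1 hG hM hn
    obtain ⟨a1, a2⟩ := hS r k C V G hC1 hG hM hn
    have hl := hlog k
    have hs : 0 ≤ √(((k : ℝ) + 1) * Real.log ((k : ℝ) + 2)) := Real.sqrt_nonneg _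
    refine ⟨a1.mono ?_, a2.mono ?_⟩ <;> gcongr
  · intro W _ H C hC1 hc V _ G hG hM
    have hl := hlog (Nat.card W)
    refine (h4 W H C hC1 hc V G hG hM).mono ?_
    gcongr
  · intro V _ G ℓ r X B C δ hG hM hℓ hX hB hC1 hδ hδ1 hE hb
    obtain ⟨Ω, mΩ, μ, f, hf⟩ := h5 V G ℓ r X B C δ hG hM hℓ hX hB hC1 hδ hδ1 hE hb
    refine ⟨Ω, mΩ, μ, f, fun x y => ⟨(hf x y).1, (hf x y).2.trans ?_⟩⟩
    have h0 := pathDist_nonneg hℓ x y
    have h2 : (0 : ℝ) ≤ C / δ + B := by positivity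
    gcongr

end Vale.Agent.P235.H606
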